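import Mathlib

/-!
# P167, general `q`: correction of the parameters of an approximating polygon
-/

set_option autoImplicit false

namespace Vale.Agent.P167.H634.Sch

open Set Metric

variable {X : Type*} [PseudoMetricSpace X]

theorem abs_clamp {a b x η : ℝ} (hab : a ≤ b) (hη : 0 ≤ η) (h1 : a - η ≤ x) (h2 : x ≤ b + η) :
    |max a (min b x) - x| ≤ η := by
  rw [abs_le]
  rcases le_total b x with h | h
  · rw [min_eq_left h, max_eq_right hab]
    constructor <;> linarith
  · rw [min_eq_right h]
    rcases le_total a x with h' | h'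
    · rw [max_eq_right h']
      constructor <;> linarith
    · rw [max_eq_left h']
      constructor <;> linarith

/-- If the parameters of the marks are correct up to `η`, they can be corrected. -/
theorem exists_fix {c : ℝ → X} {x : ℕ → X} {s : ℕ → ℝ} {N k : ℕ} {a0 a1 a2 η ε ω : ℝ}
    (hη : 0 ≤ η) (hs : Monotone s) (hk : 0 < k) (hkN : k < N) (h01 : a0 ≤ a1) (h12 : a1 ≤ a2)
    (h0 : |s 0 - a0| ≤ η) (h1 : |s k - a1| ≤ η) (h2 : |s N - a2| ≤ η)
    (hx : ∀ i < N, ∀ t ∈ Icc (s i) (s (i + 1)), dist (x i) (c t) < ε)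
    (hω : ∀ u t, |u - t| ≤ η → dist (c u) (c t) ≤ ω) :
    ∃ s' : ℕ → ℝ, Monotone s' ∧ s' 0 = a0 ∧ s' k = a1 ∧ s' N = a2 ∧
      ∀ i < N, ∀ t ∈ Icc (s' i) (s' (i + 1)), dist (x i) (c t) < ε + ω := by
  set s' : ℕ → ℝ := fun i => if i = 0 then a0 else if i < k then max a0 (min a1 (s i)) else
    if i = k then a1 else if i < N then max a1 (min a2 (s i)) else a2 with hs'
  have e0 : s' 0 = a0 := by simp [hs']
  have e1 : s' k = a1 := by
    simp only [hs']
    rw [if_neg (by omega), if_neg (by omega), if_pos trivial]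
  have e2 : s' N = a2 := by
    simp only [hs']
    rw [if_neg (by omega), if_neg (by omega), if_neg (by omega), if_neg (by omega)]
  have e3 : ∀ i, 0 < i → i < k → s' i = max a0 (min a1 (s i)) := by
    intro i hi hik
    simp only [hs']
    rw [if_neg (by omega), if_pos hik]
  have e4 : ∀ i, k < i → i < N → s' i = max a1 (min a2 (s i)) := by
    intro i hi hik
    simp only [hs']
    rw [if_neg (by omega), if_neg (by omega), if_neg (by omega), if_pos hik]
  have e5 : ∀ i, N ≤ i → s' i = a2 := by
    intro i hi
    simp only [hs']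
    rw [if_neg (by omega), if_neg (by omega), if_neg (by omega), if_neg (by omega)]
  have b1 : ∀ i, i ≤ k → a0 ≤ s' i ∧ s' i ≤ a1 := by
    intro i hi
    rcases Nat.eq_zero_or_pos i with rfl | h
    · rw [e0]
      exact ⟨le_rfl, h01⟩
    · rcases hi.lt_or_eq with h3 | rfl
      · rw [e3 i h h3]
        exact ⟨le_max_left _ _, max_le h01 (min_le_left _ _)⟩
      · rw [e1]
        exact ⟨h01, le_rfl⟩
  have b2 : ∀ i, k ≤ i → a1 ≤ s' i ∧ s' i ≤ a2 := by
    intro i hi
    rcases hi.lt_or_eq with h3 | rfl
    · rcases lt_or_ge i N with h4 | h4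
      · rw [e4 i h3 h4]
        exact ⟨le_max_left _ _, max_le h12 (min_le_left _ _)⟩
      · rw [e5 i h4]
        exact ⟨h12, le_rfl⟩
    · rw [e1]
      exact ⟨le_rfl, h12⟩
  have hmono : Monotone s' := by
    refine monotone_nat_of_le_succ fun i => ?_
    have hi := hs (Nat.le_succ i)
    rcases lt_trichotomy (i + 1) k with h | h | h
    · rw [e3 (i + 1) (by omega) h]
      rcases Nat.eq_zero_or_pos i with rfl | h'
      · rw [e0]
        exact le_max_left _ _
      · rw [e3 i h' (by omega)]
        exact max_le_max le_rfl (min_le_min le_rfl hi)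
    · rw [h, e1]
      exact (b1 i (by omega)).2
    · rcases lt_or_ge (i + 1) N with h' | h'
      · rw [e4 (i + 1) h h']
        rcases lt_or_ge k i with h'' | h''
        · rw [e4 i h'' (by omega)]
          exact max_le_max le_rfl (min_le_min le_rfl hi)
        · have h3 : i = k := by omega
          rw [h3, e1]
          exact le_max_left _ _
      · rw [e5 (i + 1) h']
        rcases le_total k i with h'' | h''
        · exact (b2 i h'').2
        · exact (b1 i h'').2.trans h12
  have hclose : ∀ i, i ≤ N → |s' i - s i| ≤ η := by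
    rw [abs_le] at h0 h1 h2
    intro i hi
    rcases Nat.eq_zero_or_pos i with rfl | h
    · rw [e0, abs_sub_comm, abs_le]
      exact h0
    · rcases lt_trichotomy i k with h3 | rfl | h3
      · rw [e3 i h h3]
        refine abs_clamp h01 hη ?_ ?_
        · have := hs (Nat.zero_le i)
          linarith [h0.1]
        · have := hs h3.le
          linarith [h1.2]
      · rw [e1, abs_sub_comm, abs_le]
        exact h1
      · rcases hi.lt_or_eq with h4 | rfl
        · rw [e4 i h3 h4]
          refine abs_clamp h12 hη ?_ ?_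
          · have := hs h3.le
            linarith [h1.1]
          · have := hs h4.le
            linarith [h2.2]
        · rw [e2, abs_sub_comm, abs_le]
          exact h2
  refine ⟨s', hmono, e0, e1, e2, fun i hi t ht => ?_⟩
  have h3 := abs_le.1 (hclose i hi.le)
  have h4 := abs_le.1 (hclose (i + 1) hi)
  have h5 := hs (Nat.le_succ i)
  have h6 : max (s i) (min (s (i + 1)) t) ∈ Icc (s i) (s (i + 1)) :=
    ⟨le_max_left _ _, max_le h5 (min_le_left _ _)⟩
  have h7 := abs_clamp (a := s i) (b := s (i + 1)) (x := t) (η := η) h5 hη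
    (by linarith [ht.1]) (by linarith [ht.2])
  exact lt_of_le_of_lt (dist_triangle _ _ _)
    (add_lt_add_of_lt_of_le (hx i hi _ h6) (hω _ _ h7))

end Vale.Agent.P167.H634.Sch
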