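import Vale.Agent.P153.R2.R1.Jordan

/-!
# P167, general `q`: the radial extension of a parametrisation of the boundary of the square
-/

set_option autoImplicit false

namespace Vale.Agent.P167.H634.Sch

open Set Metric Topology Filter Bornology
open Vale.Agent.P153.R2.R1 (toCH toCH_apply toC_circ)
open Vale.Agent.P153.R2.Final (circ toC)

variable {E : Type*} [NormedAddCommGroup E] [NormedSpace ℝ E] {b : ℝ → E}

/-- The radial extension. -/
noncomputable def rad (hper : Function.Periodic b (2 * Real.pi)) (z : ℂ) : E :=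
  ‖z‖ • hper.lift (z.arg : Real.Angle)

theorem rad_eq (hper : Function.Periodic b (2 * Real.pi)) (z : ℂ) : rad hper z = ‖z‖ • b z.arg := by
  unfold rad
  exact congrArg (fun w => ‖z‖ • w) (hper.lift_coe z.arg)

theorem norm_rad (hper : Function.Periodic b (2 * Real.pi)) (hb : ∀ t, ‖b t‖ = 1) (z : ℂ) :
    ‖rad hper z‖ = ‖z‖ := by
  rw [rad_eq, norm_smul, norm_norm, hb, mul_one]

theorem continuous_rad (hper : Function.Periodic b (2 * Real.pi)) (hb : ∀ t, ‖b t‖ = 1)
    (hc : Continuous b) : Continuous (rad hper) := by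
  rw [continuous_iff_continuousAt]
  intro z
  by_cases hz : z = 0
  · subst hz
    have h0 : rad hper 0 = 0 := by rw [rad_eq, norm_zero, zero_smul]
    unfold ContinuousAt
    rw [h0, tendsto_zero_iff_norm_tendsto_zero]
    have h1 : (fun x => ‖rad hper x‖) = fun x => ‖x‖ := funext (norm_rad hper hb)
    rw [h1]
    simpa using (continuous_norm (E := ℂ)).tendsto 0
  · have h1 : Continuous (hper.lift : Real.Angle → E) := continuous_coinduced_dom.mpr hc
    have h2 := h1.continuousAt.comp (Complex.continuousAt_arg_coe_angle hz)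
    exact continuous_norm.continuousAt.smul h2

theorem rad_circ (hper : Function.Periodic b (2 * Real.pi)) (t : ℝ) :
    rad hper (toC (circ t)) = b t := by
  rw [rad_eq, toC_circ, Complex.norm_exp_ofReal_mul_I, one_smul]
  have h1 : ((Complex.exp (t * Complex.I)).arg : Real.Angle) = (t : Real.Angle) := by
    have := Complex.arg_mul_cos_add_sin_mul_I_coe_angle (r := 1) one_pos (t : Real.Angle)
    rw [Real.Angle.cos_coe, Real.Angle.sin_coe] at this
    rw [Complex.exp_mul_I]
    push_cast at this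
    rwa [one_mul] at this
  rw [Real.Angle.angle_eq_iff_two_pi_dvd_sub] at h1
  obtain ⟨k, hk⟩ := h1
  have h2 : (Complex.exp (t * Complex.I)).arg = t + k * (2 * Real.pi) := by linarith
  rw [h2]
  have := hper.int_mul k t
  exact this

theorem rad_injective (hper : Function.Periodic b (2 * Real.pi)) (hb : ∀ t, ‖b t‖ = 1)
    (hinj : ∀ s t, b s = b t → ∃ k : ℤ, s = t + k * (2 * Real.pi)) :
    Function.Injective (rad hper) := by
  intro z w h
  have h1 : ‖z‖ = ‖w‖ := by rw [← norm_rad hper hb, h, norm_rad hper hb]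
  by_cases hz : z = 0
  · subst hz
    rw [norm_zero] at h1
    exact (norm_eq_zero.1 h1.symm).symm
  · rw [rad_eq, rad_eq, ← h1] at h
    have h2 : b z.arg = b w.arg := smul_right_injective _ (norm_ne_zero_iff.2 hz) h
    obtain ⟨k, hk⟩ := hinj _ _ h2
    refine Complex.ext_norm_arg h1 ?_
    have h3 := Complex.neg_pi_lt_arg z
    have h4 := Complex.arg_le_pi z
    have h5 := Complex.neg_pi_lt_arg w
    have h6 := Complex.arg_le_pi w
    have h7 : (k : ℝ) < 1 := by
      by_contra h
      push Not at h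
      nlinarith [Real.pi_pos]
    have h8 : (-1 : ℝ) < k := by
      by_contra h
      push Not at h
      nlinarith [Real.pi_pos]
    have h9 : k = 0 := by
      have h10 : k < 1 := by exact_mod_cast h7
      have h11 : -1 < k := by exact_mod_cast h8
      omega
    rw [h9] at hk
    simpa using hk

theorem rad_surjective (hper : Function.Periodic b (2 * Real.pi)) (hr : sphere 0 1 ⊆ range b) :
    Function.Surjective (rad hper) := by
  intro w
  by_cases hw : w = 0
  · exact ⟨0, by rw [rad_eq, norm_zero, zero_smul, hw]⟩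
  · have hw' : 0 < ‖w‖ := norm_pos_iff.2 hw
    obtain ⟨t, ht⟩ := hr (show ‖w‖⁻¹ • w ∈ sphere (0 : E) 1 by
      rw [mem_sphere_zero_iff_norm, norm_smul, norm_inv, norm_norm, inv_mul_cancel₀ hw'.ne'])
    refine ⟨(‖w‖ : ℂ) * toC (circ t), ?_⟩
    have h1 : ((‖w‖ : ℂ) * toC (circ t)).arg = (toC (circ t)).arg := Complex.arg_real_mul _ hw'
    have h2 : ‖toC (circ t)‖ = 1 := by rw [toC_circ, Complex.norm_exp_ofReal_mul_I]
    have h3 := rad_circ hper t
    rw [rad_eq, h2, one_smul] at h3
    rw [rad_eq, h1, h3, norm_mul, h2, mul_one, Complex.norm_real, norm_norm, ht, smul_smul,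
      mul_inv_cancel₀ hw'.ne', one_smul]

/-- **The radial extension** of a parametrisation of the unit sphere of a normed plane. -/
theorem exists_radial0 [ProperSpace E] (hc : Continuous b) (hper : ∀ t, b (t + 2 * Real.pi) = b t)
    (hinj : ∀ s t, b s = b t → ∃ k : ℤ, s = t + k * (2 * Real.pi))
    (hr : range b = sphere 0 1) :
    ∃ Ψ : ℂ ≃ₜ E, (∀ z, ‖Ψ z‖ = ‖z‖) ∧ ∀ t, Ψ (toC (circ t)) = b t := by
  have hp : Function.Periodic b (2 * Real.pi) := hper
  have hb : ∀ t, ‖b t‖ = 1 := fun t =>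
    mem_sphere_zero_iff_norm.1 (hr ▸ mem_range_self t)
  have hbij : Function.Bijective (rad hp) := ⟨rad_injective hp hb hinj, rad_surjective hp hr.symm.le⟩
  have hcon := continuous_rad hp hb hc
  have hprop : IsProperMap (rad hp) := by
    rw [isProperMap_iff_tendsto_cocompact]
    refine ⟨hcon, ?_⟩
    rw [← cobounded_eq_cocompact, ← cobounded_eq_cocompact, ← tendsto_norm_atTop_iff_cobounded]
    have h1 : (fun x => ‖rad hp x‖) = fun x => ‖x‖ := funext (norm_rad hp hb)
    rw [h1]
    exact tendsto_norm_cobounded_atTop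
  set Ψ := (Equiv.ofBijective (rad hp) hbij).toHomeomorphOfContinuousClosed hcon
    hprop.isClosedMap with hΨ
  have hΨz : ∀ z, Ψ z = rad hp z := fun z => rfl
  exact ⟨Ψ, fun z => by rw [hΨz, norm_rad hp hb], fun t => by rw [hΨz, rad_circ]⟩

theorem mem_disc_iff (z : ℝ × ℝ) :
    z ∈ {z : ℝ × ℝ | z.1 ^ 2 + z.2 ^ 2 < 1} ↔ ‖toCH z‖ < 1 := by
  rw [← sq_lt_one_iff₀ (norm_nonneg _), Complex.sq_norm, Complex.normSq_apply]
  show z.1 ^ 2 + z.2 ^ 2 < 1 ↔ z.1 * z.1 + z.2 * z.2 < 1
  rw [sq, sq]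

/-- **The radial extension** of a parametrisation of the boundary of the square is a homeomorphism
of the plane. -/
theorem exists_radial {b : ℝ → ℝ × ℝ} (hc : Continuous b) (hper : ∀ t, b (t + 2 * Real.pi) = b t)
    (hinj : ∀ s t, b s = b t → ∃ k : ℤ, s = t + k * (2 * Real.pi))
    (hr : range b = sphere 0 1) : ∃ Ψ : (ℝ × ℝ) ≃ₜ (ℝ × ℝ), (∀ t, Ψ (circ t) = b t) ∧
      Ψ '' {z | z.1 ^ 2 + z.2 ^ 2 < 1} = ball 0 1 := by
  obtain ⟨Ψ, hn, hΨ⟩ := exists_radial0 hc hper hinj hr
  refine ⟨toCH.trans Ψ, fun t => ?_, ?_⟩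
  · show Ψ (toCH (circ t)) = b t
    rw [toCH_apply, hΨ]
  · apply Subset.antisymm
    · rintro _ ⟨z, hz, rfl⟩
      rw [mem_ball_zero_iff]
      show ‖Ψ (toCH z)‖ < 1
      rw [hn]
      exact (mem_disc_iff z).1 hz
    · intro w hw
      refine ⟨toCH.symm (Ψ.symm w), ?_, ?_⟩
      · rw [mem_disc_iff, toCH.apply_symm_apply, ← hn, Ψ.apply_symm_apply]
        exact mem_ball_zero_iff.1 hw
      · show Ψ (toCH (toCH.symm (Ψ.symm w))) = w
        rw [toCH.apply_symm_apply, Ψ.apply_symm_apply]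

/-- A reparametrisation of the circle extends to a homeomorphism of the plane which maps the unit
disc onto itself. -/
theorem exists_circle {θ : ℝ → ℝ} (hc : Continuous θ) (hm : StrictMono θ)
    (hθ : ∀ t, θ (t + 2 * Real.pi) = θ t + 2 * Real.pi) (hs : Function.Surjective θ) :
    ∃ Ψ : (ℝ × ℝ) ≃ₜ (ℝ × ℝ), (∀ t, Ψ (circ t) = circ (θ t)) ∧
      Ψ '' {z | z.1 ^ 2 + z.2 ^ 2 < 1} = {z | z.1 ^ 2 + z.2 ^ 2 < 1} := by
  have hθk : ∀ (k : ℤ) t, θ (t + k * (2 * Real.pi)) = θ t + k * (2 * Real.pi) := by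
    intro k t
    induction k using Int.induction_on with
    | zero => simp
    | succ i ih =>
      have h2 : t + (((i : ℤ) + 1 : ℤ) : ℝ) * (2 * Real.pi) =
          t + ((i : ℤ) : ℝ) * (2 * Real.pi) + 2 * Real.pi := by push_cast; ring
      rw [h2, hθ, ih]
      push_cast
      ring
    | pred i ih =>
      have h2 : t + ((-(i : ℤ) - 1 : ℤ) : ℝ) * (2 * Real.pi) + 2 * Real.pi =
          t + ((-(i : ℤ) : ℤ) : ℝ) * (2 * Real.pi) := by push_cast; ring
      have h3 := hθ (t + ((-(i : ℤ) - 1 : ℤ) : ℝ) * (2 * Real.pi))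
      rw [h2, ih] at h3
      push_cast at h3 ⊢
      linarith
  obtain ⟨Ψ, hn, hΨ⟩ := exists_radial0 (b := fun t => Complex.exp (θ t * Complex.I))
    (by fun_prop)
    (fun t => by
      rw [hθ]
      push_cast
      rw [add_mul, Complex.exp_add, Complex.exp_two_pi_mul_I, mul_one])
    (fun s t h => by
      obtain ⟨k, hk⟩ := Complex.exp_eq_exp_iff_exists_int.1 h
      refine ⟨k, hm.injective ?_⟩
      rw [hθk]
      have h2 : ((θ s : ℂ) - (θ t + k * (2 * Real.pi))) * Complex.I = 0 := by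
        linear_combination hk
      have h3 := (mul_eq_zero.1 h2).resolve_right Complex.I_ne_zero
      have h4 : (θ s : ℂ) = ((θ t + k * (2 * Real.pi) : ℝ) : ℂ) := by
        push_cast
        exact sub_eq_zero.1 h3
      exact_mod_cast h4)
    (by
      apply Subset.antisymm
      · rintro _ ⟨t, rfl⟩
        rw [mem_sphere_zero_iff_norm, Complex.norm_exp_ofReal_mul_I]
      · intro z hz
        obtain ⟨t, ht⟩ := hs z.arg
        refine ⟨t, ?_⟩
        show Complex.exp (θ t * Complex.I) = z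
        rw [ht]
        have := Complex.norm_mul_exp_arg_mul_I z
        rwa [mem_sphere_zero_iff_norm.1 hz, Complex.ofReal_one, one_mul] at this)
  refine ⟨(toCH.trans Ψ).trans toCH.symm, fun t => ?_, ?_⟩
  · show toCH.symm (Ψ (toCH (circ t))) = _
    rw [toCH_apply, hΨ, ← toC_circ, ← toCH_apply, toCH.symm_apply_apply]
  · ext w
    constructor
    · rintro ⟨z, hz, rfl⟩
      rw [mem_disc_iff] at hz ⊢
      show ‖toCH (toCH.symm (Ψ (toCH z)))‖ < 1
      rwa [toCH.apply_symm_apply, hn]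
    · intro hw
      refine ⟨toCH.symm (Ψ.symm (toCH w)), ?_, ?_⟩
      · rw [mem_disc_iff] at hw ⊢
        rwa [toCH.apply_symm_apply, ← hn, Ψ.apply_symm_apply]
      · show toCH.symm (Ψ (toCH (toCH.symm (Ψ.symm (toCH w))))) = w
        rw [toCH.apply_symm_apply, Ψ.apply_symm_apply, toCH.symm_apply_apply]

end Vale.Agent.P167.H634.Sch
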