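import Vale.Agent.P167.H634.Sch.List
import Vale.Agent.P167.H634.Sch.Radial
import Vale.Agent.P167.E6.Poly6

/-!
# P167, general `q`: Schoenflies for polygons of the square lattice, with a parametrisation

`sch_poly`: for a polygon of the square lattice, every parametrisation `PF6 p δ ∘ σ` of its boundary
curve is the restriction to the circle of a homeomorphism of the plane which maps the unit disc onto
the enclosed domain.
-/

set_option autoImplicit false

namespace Vale.Agent.P167.H634.Sch

open Set Metric Topology Filter Bornology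
open Vale.Agent.P153.R2.R1 (toCH toCH_apply pl per_int)
open Vale.Agent.P153.R2.Final (circ toC dom)
open Vale.Agent.P167.E6 (PF6 PV6 D6 jcurve_PF6 frontier_D6 isConnected_D6 isBounded_D6 isOpen_D6
  IsPolygon Encloses)
open P073 P073.SCH

/-- A bounded domain with the frontier of an ambient disc is the interior of the disc. -/
theorem eq_interior {K G : Set ℂ} (hK : IsCompact K) (h1 : IsPreconnected (interior K))
    (h2 : IsPreconnected Kᶜ) (hG : IsOpen G) (hGc : IsConnected G) (hGb : IsBounded G)
    (hf : frontier G = frontier K) : G = interior K := by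
  have hdis : ∀ x ∈ G, x ∉ frontier K := by
    intro x hx
    rw [← hf, hG.frontier_eq]
    exact fun h => h.2 hx
  have hcov : G ⊆ interior K ∪ Kᶜ := by
    intro x hx
    by_cases h : x ∈ K
    · left
      by_contra h3
      exact hdis x hx (by rw [frontier, hK.isClosed.closure_eq]; exact ⟨h, h3⟩)
    · exact Or.inr h
  have hdj : Disjoint (interior K) Kᶜ :=
    disjoint_compl_right.mono_left interior_subset
  have hint : interior K ∩ frontier G = ∅ := by
    rw [hf, frontier, eq_empty_iff_forall_notMem]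
    rintro x ⟨hx1, hx2⟩
    exact hx2.2 hx1
  have hext : Kᶜ ∩ frontier G = ∅ := by
    rw [hf, frontier, hK.isClosed.closure_eq, eq_empty_iff_forall_notMem]
    rintro x ⟨hx1, hx2⟩
    exact hx1 hx2.1
  have key : ∀ A : Set ℂ, IsPreconnected A → A ∩ frontier G = ∅ → (A ∩ G).Nonempty → A ⊆ G := by
    intro A hA hA1 hA2
    refine hA.subset_left_of_subset_union hG isClosed_closure.isOpen_compl
      (disjoint_compl_right.mono_left subset_closure) ?_ hA2
    intro x hx
    by_cases h : x ∈ closure G
    · left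
      by_contra h3
      have h4 : x ∈ A ∩ frontier G := ⟨hx, by rw [hG.frontier_eq]; exact ⟨h, h3⟩⟩
      rw [hA1] at h4
      exact h4
    · exact Or.inr h
  by_cases hne : (G ∩ interior K).Nonempty
  · apply Subset.antisymm
    · exact hGc.isPreconnected.subset_left_of_subset_union isOpen_interior hK.isClosed.isOpen_compl
        hdj hcov hne
    · refine key _ h1 hint ?_
      rwa [inter_comm]
  · exfalso
    have h3 : G ⊆ Kᶜ := by
      intro x hx
      rcases hcov hx with h | h
      · exact absurd ⟨x, hx, h⟩ hne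
      · exact h
    have h4 : Kᶜ ⊆ G := by
      refine key _ h2 hext ?_
      obtain ⟨x, hx⟩ := hGc.nonempty
      exact ⟨x, h3 hx, hx⟩
    have h5 := (hGb.subset h4).union hK.isBounded
    rw [compl_union_self] at h5
    exact NormedSpace.unbounded_univ ℝ ℂ h5

/-- The closed curve in the real plane. -/
theorem pl_toCH (P : ℤ → ℂ) (x : ℝ) : pl (fun i => toCH.symm (P i)) x = toCH.symm (pl P x) := by
  apply toCH.injective
  rw [toCH.apply_symm_apply]
  apply Complex.ext
  · show (1 - Int.fract x) * (P ⌊x⌋).re + Int.fract x * (P (⌊x⌋ + 1)).re = (pl P x).re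
    simp [pl]
  · show (1 - Int.fract x) * (P ⌊x⌋).im + Int.fract x * (P (⌊x⌋ + 1)).im = (pl P x).im
    simp [pl]

theorem surjective_of_step {σ : ℝ → ℝ} (hc : Continuous σ) {a c : ℝ} (hc0 : 0 < c)
    (hσ : ∀ t, σ (t + a) = σ t + c) : Function.Surjective σ := by
  have h1 : ∀ (k : ℕ) t, σ (t + k * a) = σ t + k * c := by
    intro k
    induction k with
    | zero => intro t; simp
    | succ k ih =>
      intro t
      have h2 : t + ((k + 1 : ℕ) : ℝ) * a = t + k * a + a := by push_cast; ring
      rw [h2, hσ, ih]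
      push_cast
      ring
  intro y
  refine mem_range_of_exists_le_of_exists_ge hc ?_ ?_
  · obtain ⟨k, hk⟩ := exists_nat_ge ((σ 0 - y) / c)
    refine ⟨0 - k * a, ?_⟩
    have h2 := h1 k (0 - k * a)
    rw [sub_add_cancel] at h2
    rw [div_le_iff₀ hc0] at hk
    linarith
  · obtain ⟨k, hk⟩ := exists_nat_ge ((y - σ 0) / c)
    refine ⟨0 + k * a, ?_⟩
    rw [h1]
    rw [div_le_iff₀ hc0] at hk
    linarith

variable {n : ℕ} {p : ZMod n → ℤ × ℤ} {S : Finset (ℤ × ℤ)} {δ : ℝ} {σ : ℝ → ℝ}

/-- **Schoenflies theorem for polygons of the square lattice, with a parametrisation of the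
boundary.** -/
theorem sch_poly (hδ : 0 < δ) (hp : IsPolygon p) (hS : Encloses p S) (hc : Continuous σ)
    (hm : StrictMono σ) (hσ : ∀ t, σ (t + 2 * Real.pi) = σ t + n) :
    ∃ Φ : (ℝ × ℝ) ≃ₜ (ℝ × ℝ), (∀ t, toC (Φ (circ t)) = PF6 p δ (σ t)) ∧
      toC '' dom Φ = D6 δ S := by
  have hn : 2 < n := hp.1
  have hn0 : (0 : ℝ) < n := by exact_mod_cast (by omega : 0 < n)
  have hJ := jcurve_PF6 (p := p) hδ hp
  set P : ℤ → ℝ × ℝ := fun i => toCH.symm (PV6 p δ i) with hP
  have hF : ∀ x, pl P x = toCH.symm (PF6 p δ x) := fun x => pl_toCH (PV6 p δ) x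
  obtain ⟨hcp, hcc⟩ := cpoly_Ls (P := P) hn
    (fun i => by rw [hP]; exact congrArg toCH.symm (E6.PV6_per i))
    (fun x y h => by
      rw [hF, hF] at h
      exact hJ.inj x y (toCH.symm.injective h))
  obtain ⟨D, hD, hfr⟩ := schoenflies (isCircle_ccar hcp)
  have hDc : IsCompact D := hD.isCompact
  have hDi := hD.isConnected_interior
  have hDe := hD.isPreconnected_compl
  obtain ⟨Φc, hΦc⟩ := hD
  set Φ0 : (ℝ × ℝ) ≃ₜ (ℝ × ℝ) := Φc.toHomeomorph with hΦ0
  have hΦD : Φ0 '' closedBall 0 1 = D := hΦc
  have hsph : Φ0 '' sphere 0 1 = range (pl P) := by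
    rw [← frontier_closedBall (0 : ℝ × ℝ) one_ne_zero, Φ0.image_frontier, hΦD, hfr, hcc]
  have hball : Φ0 '' ball 0 1 = interior D := by
    rw [← interior_closedBall (0 : ℝ × ℝ) one_ne_zero, Φ0.image_interior, hΦD]
  set b : ℝ → ℝ × ℝ := fun t => Φ0.symm (toCH.symm (PF6 p δ (σ t))) with hb
  have hσk : ∀ (k : ℤ) t, σ (t + k * (2 * Real.pi)) = σ t + k * n := by
    intro k t
    induction k using Int.induction_on with
    | zero => simp
    | succ i ih =>
      have h2 : t + (((i : ℤ) + 1 : ℤ) : ℝ) * (2 * Real.pi) =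
          t + ((i : ℤ) : ℝ) * (2 * Real.pi) + 2 * Real.pi := by push_cast; ring
      rw [h2, hσ, ih]
      push_cast
      ring
    | pred i ih =>
      have h2 : t + ((-(i : ℤ) - 1 : ℤ) : ℝ) * (2 * Real.pi) + 2 * Real.pi =
          t + ((-(i : ℤ) : ℤ) : ℝ) * (2 * Real.pi) := by push_cast; ring
      have h3 := hσ (t + ((-(i : ℤ) - 1 : ℤ) : ℝ) * (2 * Real.pi))
      rw [h2, ih] at h3
      push_cast at h3 ⊢
      linarith
  obtain ⟨Ψ, hΨ1, hΨ2⟩ := exists_radial (b := b)
    (Φ0.symm.continuous.comp (toCH.symm.continuous.comp (hJ.cont.comp hc)))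
    (fun t => by
      simp only [hb]
      rw [hσ, hJ.per])
    (fun s t h => by
      simp only [hb] at h
      obtain ⟨k, hk⟩ := hJ.inj _ _ (toCH.symm.injective (Φ0.symm.injective h))
      refine ⟨k, hm.injective ?_⟩
      rw [hσk, hk])
    (by
      have hsurj := surjective_of_step hc hn0 hσ
      apply Subset.antisymm
      · rintro _ ⟨t, rfl⟩
        have h1 : toCH.symm (PF6 p δ (σ t)) ∈ Φ0 '' sphere 0 1 := by
          rw [hsph, ← hF]
          exact mem_range_self _
        obtain ⟨z, hz, hz'⟩ := h1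
        simp only [hb]
        rw [← hz', Φ0.symm_apply_apply]
        exact hz
      · intro z hz
        have h1 : Φ0 z ∈ range (pl P) := by
          rw [← hsph]
          exact mem_image_of_mem _ hz
        obtain ⟨x, hx⟩ := h1
        obtain ⟨t, rfl⟩ := hsurj x
        refine ⟨t, ?_⟩
        simp only [hb]
        rw [← hF, hx, Φ0.symm_apply_apply])
  refine ⟨Ψ.trans Φ0, fun t => ?_, ?_⟩
  · show toCH (Φ0 (Ψ (circ t))) = _
    rw [hΨ1]
    simp only [hb]
    rw [Φ0.apply_symm_apply, toCH.apply_symm_apply]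
  · have h1 : dom (Ψ.trans Φ0) = interior D := by
      show (fun z => Φ0 (Ψ z)) '' _ = _
      rw [← image_image, hΨ2, hball]
    rw [h1]
    show toCH '' interior D = _
    rw [toCH.image_interior]
    symm
    refine eq_interior (hDc.image toCH.continuous) ?_ ?_ (isOpen_D6 δ S)
      (isConnected_D6 hδ hp hS) (isBounded_D6 hδ S) ?_
    · rw [← toCH.image_interior]
      exact hDi.isPreconnected.image _ toCH.continuous.continuousOn
    · rw [← image_compl_eq toCH.bijective]
      exact hDe.image _ toCH.continuous.continuousOn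
    · rw [frontier_D6 hδ hp hS, ← toCH.image_frontier, hfr, hcc]
      apply Subset.antisymm
      · rintro _ ⟨x, rfl⟩
        refine ⟨pl P x, mem_range_self _, ?_⟩
        rw [hF, toCH.apply_symm_apply]
      · rintro _ ⟨_, ⟨x, rfl⟩, rfl⟩
        rw [hF, toCH.apply_symm_apply]
        exact mem_range_self _

end Vale.Agent.P167.H634.Sch
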