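import Vale.Agent.P073.SCH.Schoenflies
import Vale.Agent.P153.R2.R1.PL

/-!
# P167, general `q`: simple closed polygonal curves bound ambient discs

A closed curve without double points which is affine between the integers is a simple closed polygon
in the sense of P073, so it bounds an ambient disc.
-/

set_option autoImplicit false

namespace Vale.Agent.P167.H634.Sch

open Set Metric Topology
open Vale.Agent.P153.R2.R1 (pl pl_eq pl_mem_segment exists_pl_of_segment continuous_pl)
open P073.SCH (pcar psimple ccar CPoly pcar_cons_cons psimple_cons_cons cpoly_cons_append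
  isCircle_ccar schoenflies)

variable {E : Type*} [NormedAddCommGroup E] [NormedSpace ℝ E]

/-- The points `P a, …, P (a + m - 1)`. -/
def Ls (P : ℤ → E) : ℤ → ℕ → List E
  | _, 0 => []
  | a, m + 1 => P a :: Ls P (a + 1) m

theorem segment_eq (P : ℤ → E) (i : ℤ) :
    segment ℝ (P i) (P (i + 1)) = pl P '' Icc (i : ℝ) (i + 1) := by
  apply Subset.antisymm
  · intro z hz
    obtain ⟨x, hx, h⟩ := exists_pl_of_segment P i hz
    exact ⟨x, hx, h⟩
  · rintro _ ⟨x, hx, rfl⟩
    rw [pl_eq P i hx.1 hx.2]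
    exact ⟨1 - (x - i), x - i, by linarith [hx.2], by linarith [hx.1], by ring, rfl⟩

theorem pl_int (P : ℤ → E) (i : ℤ) : pl P i = P i := by
  simp [pl]

theorem pcar_Ls (P : ℤ → E) (a : ℤ) (m : ℕ) :
    pcar (Ls P a (m + 1)) = pl P '' Icc (a : ℝ) (a + m) := by
  induction m generalizing a with
  | zero =>
    show pcar [P a] = _
    rw [P073.SCH.pcar_singleton, Nat.cast_zero, add_zero, Icc_self, image_singleton, pl_int]
  | succ m ih =>
    show pcar (P a :: P (a + 1) :: Ls P (a + 1 + 1) m) = _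
    have h1 : P (a + 1) :: Ls P (a + 1 + 1) m = Ls P (a + 1) (m + 1) := rfl
    rw [pcar_cons_cons, h1, ih, segment_eq, ← image_union]
    congr 1
    ext x
    rw [mem_union, mem_Icc, mem_Icc, mem_Icc]
    push_cast
    constructor
    · rintro (⟨h2, h3⟩ | ⟨h2, h3⟩)
      · exact ⟨h2, by have : (0 : ℝ) ≤ m := Nat.cast_nonneg m; linarith⟩
      · exact ⟨by linarith, by linarith⟩
    · rintro ⟨h2, h3⟩
      rcases le_total x (a + 1) with h | h
      · exact Or.inl ⟨h2, h⟩
      · exact Or.inr ⟨h, by linarith⟩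

theorem psimple_Ls {P : ℤ → E} {n : ℕ} (hinj : ∀ x y, pl P x = pl P y → ∃ k : ℤ, x = y + k * n)
    (a : ℤ) (m : ℕ) (hm : m < n) (hn : 1 < n) : psimple (Ls P a (m + 1)) := by
  induction m generalizing a with
  | zero => exact P073.SCH.psimple_singleton _
  | succ m ih =>
    show psimple (P a :: P (a + 1) :: Ls P (a + 1 + 1) m)
    have h1 : P (a + 1) :: Ls P (a + 1 + 1) m = Ls P (a + 1) (m + 1) := rfl
    have hn' : (1 : ℝ) < n := by exact_mod_cast hn
    have hm' : (m : ℝ) + 1 < n := by exact_mod_cast hm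
    rw [psimple_cons_cons, h1, pcar_Ls, segment_eq]
    refine ⟨fun h => ?_, ?_, ih (a + 1) (by omega)⟩
    · rw [← pl_int P a, ← pl_int P (a + 1)] at h
      obtain ⟨k, hk⟩ := hinj _ _ h
      push_cast at hk
      have h2 : (k : ℝ) * n = -1 := by linarith
      have h3 : k * n = -1 := by exact_mod_cast h2
      have h4 : (n : ℤ) ∣ -1 := ⟨k, by rw [← h3]; ring⟩
      have h5 : (n : ℤ) ∣ 1 := (dvd_neg.1 h4)
      have h6 := Int.le_of_dvd one_pos h5
      omega
    · rintro z ⟨⟨x, hx, rfl⟩, ⟨y, hy, hxy⟩⟩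
      obtain ⟨k, hk⟩ := hinj _ _ hxy
      push_cast at hy
      have h2 : 0 ≤ (k : ℝ) * n := by linarith [hx.2, hy.1]
      have h3 : (k : ℝ) * n < n := by linarith [hx.1, hy.2]
      have hn0 : (0 : ℝ) < n := by linarith
      have h4 : (0 : ℝ) ≤ k := by
        by_contra h
        push Not at h
        nlinarith
      have h5 : (k : ℝ) < 1 := by
        by_contra h
        push Not at h
        nlinarith
      have h6 : k = 0 := by
        have h7 : (0 : ℤ) ≤ k := by exact_mod_cast h4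
        have h8 : k < 1 := by exact_mod_cast h5
        omega
      rw [h6] at hk
      have h9 : x = a + 1 := by
        have := hy.1
        have := hx.2
        simp at hk
        linarith
      rw [mem_singleton_iff, h9, ← pl_int P (a + 1)]
      push_cast
      rfl

theorem Ls_concat (P : ℤ → E) (a : ℤ) (m : ℕ) : Ls P a (m + 1) = Ls P a m ++ [P (a + m)] := by
  induction m generalizing a with
  | zero => simp [Ls]
  | succ m ih =>
    show P a :: Ls P (a + 1) (m + 1) = P a :: (Ls P (a + 1) m ++ [P (a + (m + 1 : ℕ))])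
    rw [ih]
    congr 3
    push_cast
    ring_nf

/-- The polygon. -/
theorem cpoly_Ls {P : ℤ → E} {n : ℕ} (hn : 2 < n) (hper : ∀ i, P (i + n) = P i)
    (hinj : ∀ x y, pl P x = pl P y → ∃ k : ℤ, x = y + k * n) :
    CPoly (Ls P 0 n) ∧ ccar (Ls P 0 n) = range (pl P) := by
  obtain ⟨m, rfl⟩ : ∃ m, n = m + 3 := ⟨n - 3, by omega⟩
  have e1 : Ls P 0 (m + 3) = P 0 :: (Ls P 1 (m + 1) ++ [P (1 + (m + 1 : ℕ))]) := by
    show P 0 :: Ls P (0 + 1) (m + 1 + 1) = _
    rw [Ls_concat, zero_add]
  have e2 : P (1 + (m + 1 : ℕ) + 1) = P 0 := by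
    rw [← hper 0]
    congr 1
    push_cast
    ring
  have hps := psimple_Ls hinj 0 (m + 2) (by omega) (by omega)
  have hpc := pcar_Ls P 0 (m + 2)
  have e3 : Ls P 0 (m + 2 + 1) = Ls P 0 (m + 3) := rfl
  rw [e3] at hps hpc
  have hseg : segment ℝ (P (1 + (m + 1 : ℕ))) (P 0) = pl P '' Icc ((m : ℝ) + 2) (m + 3) := by
    rw [← e2, segment_eq]
    push_cast
    congr 2 <;> ring
  constructor
  · rw [e1, cpoly_cons_append, ← e1]
    refine ⟨by simp [Ls], hps, ?_⟩
    rw [hpc, hseg]
    rintro z ⟨⟨x, hx, rfl⟩, ⟨y, hy, hxy⟩⟩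
    obtain ⟨k, hk⟩ := hinj _ _ hxy
    push_cast at hy hk
    have hm0 : (0 : ℝ) ≤ m := Nat.cast_nonneg m
    have h2 : -2 < (k : ℝ) := by
      by_contra h
      push Not at h
      have h3 : (k : ℝ) * (m + 3) ≤ -2 * (m + 3) := by nlinarith
      linarith [hx.2, hy.1, hx.1, hy.2]
    have h3 : (k : ℝ) ≤ 0 := by
      by_contra h
      push Not at h
      have h4 : (0 : ℝ) < k * (m + 3) := by positivity
      linarith [hx.1, hy.2]
    have h4 : k = -1 ∨ k = 0 := by
      have h5 : (-2 : ℤ) < k := by exact_mod_cast h2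
      have h6 : k ≤ 0 := by exact_mod_cast h3
      omega
    rw [mem_insert_iff, mem_singleton_iff]
    rcases h4 with rfl | rfl
    · right
      have h5 : x = ((m + 3 : ℤ) : ℝ) := by
        push_cast at hk ⊢
        linarith [hx.2, hy.1]
      rw [h5, pl_int, ← hper 0]
      congr 1
      push_cast
      ring
    · left
      have h5 : x = ((1 + (m + 1 : ℕ) : ℤ) : ℝ) := by
        push_cast at hk ⊢
        linarith [hx.1, hy.2]
      rw [h5, pl_int]
  · rw [e1]
    show pcar (P 0 :: (Ls P 1 (m + 1) ++ [P (1 + (m + 1 : ℕ))] ++ [P 0])) = _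
    have e4 : P 0 :: (Ls P 1 (m + 1) ++ [P (1 + (m + 1 : ℕ))] ++ [P 0]) = Ls P 0 (m + 3 + 1) := by
      rw [Ls_concat P 0 (m + 3), e1, ← hper 0]
      simp
    rw [e4, pcar_Ls]
    apply Subset.antisymm
    · exact image_subset_range _ _
    · rintro _ ⟨x, rfl⟩
      have hn0 : (0 : ℝ) < ((m + 3 : ℕ) : ℝ) := by positivity
      refine ⟨x - ⌊x / ((m + 3 : ℕ) : ℝ)⌋ * ((m + 3 : ℕ) : ℝ), ?_, ?_⟩
      · have h1 := Int.floor_le (x / ((m + 3 : ℕ) : ℝ))
        have h2 := Int.lt_floor_add_one (x / ((m + 3 : ℕ) : ℝ))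
        rw [le_div_iff₀ hn0] at h1
        rw [div_lt_iff₀ hn0] at h2
        rw [mem_Icc]
        push_cast at h1 h2 ⊢
        constructor <;> nlinarith
      · have hp : Function.Periodic (pl P) ((m + 3 : ℕ) : ℝ) := by
          intro y
          have := P153.R2.R1.pl_add P P ((m + 3 : ℕ) : ℤ) 0 (fun i => by rw [hper, add_zero]) y
          rw [add_zero] at this
          exact_mod_cast this
        exact hp.sub_int_mul_eq _

end Vale.Agent.P167.H634.Sch
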